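import Vale.Agent.P073.DirMain

/-!
# P073: directionally monotone maps, monotone maps and vertical shears are approximable
-/

namespace Vale.Agent.Results.P073.DirectionallyMonotone

open Vale.Agent.P073

theorem result :
    ∀ (p : ℝ), 1 ≤ p → ∀ (Ω K : Set (EuclideanSpace ℝ (Fin 3))), IsOpen Ω → Bornology.IsBounded Ω →
      IsCompact K → K ⊆ Ω → ∀ F : EuclideanSpace ℝ (Fin 3) → EuclideanSpace ℝ (Fin 3),
      ContinuousOn F Ω → (∀ x ∈ Ω, x ∉ K → F x = x) → (∃ G, IsWeakGrad Ω p F G) →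
      (DirMonotone Ω F → DiffeoApproximable p Ω Ω F) ∧
      ((∀ x ∈ Ω, ∀ y ∈ Ω, 0 ≤ inner ℝ (F x - F y) (x - y)) → DiffeoApproximable p Ω Ω F) ∧
      (Set.BijOn F Ω Ω → (∀ x ∈ Ω, F x 0 = x 0 ∧ F x 1 = x 1) → DiffeoApproximable p Ω Ω F) := by
  intro p hp Ω K hΩ hb hK hKΩ F hcont hid hW
  refine ⟨fun h => approximable_of_dirMonotone hΩ hb hp hK hKΩ hcont hid h hW, fun h => ?_,
    fun hbij hfix => approximable_of_shear hΩ hb hp hK hKΩ hbij hcont hfix hid hW⟩
  refine approximable_of_dirMonotone hΩ hb hp hK hKΩ hcont hid ?_ hW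
  intro v hv
  refine ⟨innerSL ℝ v, ?_, fun x s hs hseg => ?_⟩
  · rw [innerSL_apply_apply, real_inner_self_eq_norm_sq]
    positivity
  · have := h (x + s • v) (hseg (right_mem_segment ℝ _ _)) x (hseg (left_mem_segment ℝ _ _))
    rw [add_sub_cancel_left, inner_smul_right] at this
    have h2 : 0 ≤ inner ℝ (F (x + s • v) - F x) v := (mul_nonneg_iff_of_pos_left hs).1 this
    rw [inner_sub_left, sub_nonneg] at h2
    simpa [innerSL_apply_apply, real_inner_comm v] using h2

end Vale.Agent.Results.P073.DirectionallyMonotone
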